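import Vale.Agent.P011N.G2a.Opn

/-!
Adding invariant forms to a family of forms.
-/

open Topology

namespace Vale.Agent.P011N.X

variable {V : Type} [AddCommGroup V] [Module ℚ V]

/-- The hypotheses on the forms, without the anisotropy. -/
structure Good0 (T : Forms V) : Prop where
  det : ∀ g ∈ T.grp, |LinearMap.det (g : Module.End ℚ V)| = 1
  tan_ne : ∃ X ∈ T.tan, X ≠ 0
  irr : ∀ W : Submodule ℚ (Module.End ℚ V), W ≤ T.lie → W ≠ ⊥ →
    (∀ X ∈ T.tan, ∀ Y ∈ W, X * Y - Y * X ∈ W) → W = T.lie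
  nonab : ∃ X ∈ T.lie, ∃ Y ∈ T.lie, X * Y ≠ Y * X
  cent : ∀ n : T.grp, (∀ X ∈ T.lie, (n.1 : Module.End ℚ V) * X = X * (n.1 : Module.End ℚ V)) →
    n ∈ Subgroup.center T.grp

/-- The union of two families. -/
def sum (T T' : Forms V) : Forms V where
  I := T.I ⊕ T'.I
  fin := haveI := T.fin; haveI := T'.fin; inferInstance
  deg := Sum.elim T.deg T'.deg
  τ := fun i => match i with
    | .inl i => T.τ i
    | .inr i => T'.τ i

theorem sum_grp {T T' : Forms V} (hle : T.grp ≤ T'.grp) : (sum T T').grp = T.grp :=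
  le_antisymm (fun _ hg i => hg (.inl i)) fun _ hg i => match i with
    | .inl i => hg i
    | .inr i => hle hg i

theorem sum_tan {T T' : Forms V} (hle : T.grp ≤ T'.grp) : (sum T T').tan = T.tan := by
  simp only [Forms.tan, sum_grp hle]

theorem sum_lie [FiniteDimensional ℚ V] {T T' : Forms V} (hT : Good0 T) (hle : T.grp ≤ T'.grp) :
    (sum T T').lie = T.lie := by
  let b := Module.finBasis ℚ V
  have h1 : Submodule.span ℚ T.tan = T.lie := by
    refine hT.irr _ (Submodule.span_le.2 fun _ => G2a.tan_lie b) (fun h => ?_) fun X hX Y hY => ?_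
    · obtain ⟨X, hX, hX0⟩ := hT.tan_ne
      exact hX0 (Submodule.span_eq_bot.1 h X hX)
    · refine G2a.ad_stable b ∅ (Λ₀ := T.grp) ⟨Set.univ, Filter.univ_mem, fun _ h _ => h⟩
        (fun g hg => sub_mem ?_ hY) hX
      exact (Submodule.span_le.2 fun Z hZ => Submodule.subset_span (G2a.tan_ad hg hZ) :
        Submodule.span ℚ T.tan ≤ (Submodule.span ℚ T.tan).comap (G2a.ad g)) hY
  refine le_antisymm (fun _ hX i => hX (.inl i)) ?_
  rw [← h1, ← sum_tan hle]
  exact Submodule.span_le.2 fun _ => G2a.tan_lie b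

theorem good_sum [FiniteDimensional ℚ V] {T T' : Forms V} (hT : Good0 T) (hle : T.grp ≤ T'.grp)
    (han : ∀ x : V, x ≠ 0 → ∃ i, T'.deg i ≠ 0 ∧ T'.τ i (fun _ => x) ≠ 0) : (sum T T').Good := by
  refine ⟨?_, fun x hx => ?_, ?_, ?_, ?_, ?_⟩
  · rw [sum_grp hle]; exact hT.det
  · obtain ⟨i, hi⟩ := han x hx
    exact ⟨.inr i, hi⟩
  · rw [sum_tan hle]; exact hT.tan_ne
  · rw [sum_tan hle, sum_lie hT hle]; exact hT.irr
  · rw [sum_lie hT hle]; exact hT.nonab
  · rw [sum_grp hle, sum_lie hT hle]; exact hT.cent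

/-- A group given by a family of forms which is good up to anisotropy, with an anisotropic family of
invariant forms. -/
theorem hasGood_of {G : Type} [Group G] [FiniteDimensional ℚ V] {T T' : Forms V} (hT : Good0 T)
    (e : G ≃* T.grp) (hle : T.grp ≤ T'.grp)
    (han : ∀ x : V, x ≠ 0 → ∃ i, T'.deg i ≠ 0 ∧ T'.τ i (fun _ => x) ≠ 0) : HasGood G :=
  ⟨V, _, _, inferInstance, sum T T', good_sum hT hle han,
    ⟨e.trans (MulEquiv.subgroupCongr (sum_grp hle).symm)⟩⟩

end Vale.Agent.P011N.X
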