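import Vale.Agent.P011.E6I.H553.Tr
import Vale.Agent.P011.E6H.XDefs
import Vale.Agent.P011N.D2.EForms
import Vale.Agent.P011N.X.Extra

/-!
An anisotropic family of invariant forms for the outer groups of type `E₆`.
-/

namespace Vale.Agent.P011N.X

open Vale.Agent.P011 Vale.Agent.P011.MPQ Vale.Agent.P011.D4 Vale.Agent.P011.D4.Oct
open Vale.Agent.P011.E6 Vale.Agent.P011.E6.Alb Vale.Agent.P011.E6H

section

variable {F : Type} [Field F] {a b c : Fˣ}

theorem zero_of_d1 (hC : Division a b c) {e z : Alb a b c} (he : e.d1 ≠ 0) (h0 : z.d1 = 0)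
    (hz : adj z = 0) (h : cross e z = 0) : z = 0 := by
  have h2 : z.x2 = 0 := hC _ (by simpa [adj, h0] using congrArg Alb.d2 hz)
  have h3 : z.x3 = 0 := hC _ (by simpa [adj, h0] using congrArg Alb.d3 hz)
  ext1
  · exact h0
  · simpa [cross, h0, h3, he] using congrArg Alb.d3 h
  · simpa [cross, h0, h2, he] using congrArg Alb.d2 h
  · simpa [cross, h0, h2, h3, he] using congrArg Alb.x1 h
  · exact h2
  · exact h3

theorem zero_of_d2 (hC : Division a b c) {e z : Alb a b c} (he : e.d2 ≠ 0) (h0 : z.d2 = 0)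
    (hz : adj z = 0) (h : cross e z = 0) : z = 0 := by
  have h3 : z.x3 = 0 := hC _ (by simpa [adj, h0] using congrArg Alb.d3 hz)
  have h1 : z.x1 = 0 := hC _ (by simpa [adj, h0] using congrArg Alb.d1 hz)
  ext1
  · simpa [cross, h0, h3, he] using congrArg Alb.d3 h
  · exact h0
  · simpa [cross, h0, h1, he] using congrArg Alb.d1 h
  · exact h1
  · simpa [cross, h0, h1, h3, he] using congrArg Alb.x2 h
  · exact h3

theorem zero_of_d3 (hC : Division a b c) {e z : Alb a b c} (he : e.d3 ≠ 0) (h0 : z.d3 = 0)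
    (hz : adj z = 0) (h : cross e z = 0) : z = 0 := by
  have h1 : z.x1 = 0 := hC _ (by simpa [adj, h0] using congrArg Alb.d1 hz)
  have h2 : z.x2 = 0 := hC _ (by simpa [adj, h0] using congrArg Alb.d2 hz)
  ext1
  · simpa [cross, h0, h2, he] using congrArg Alb.d2 h
  · simpa [cross, h0, h1, he] using congrArg Alb.d1 h
  · exact h0
  · exact h1
  · exact h2
  · simpa [cross, h0, h1, h2, he] using congrArg Alb.x3 h

/-- Two points of the Moufang plane with zero product are equal. -/
theorem prop_of_cross (hC : Division a b c) {e z : Alb a b c} (he : adj e = 0) (hz : adj z = 0)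
    (h : cross e z = 0) (h0 : e ≠ 0) : ∃ t : F, z = t • e := by
  have h1 : ∀ t : F, adj (z - t • e) = 0 := fun t => by
    rw [sub_eq_add_neg, ← neg_smul, adj_add, hz, adj_smul, he, cross_smul_right, cross_comm, h]
    simp
  have h2 : ∀ t : F, cross e (z - t • e) = 0 := fun t => by
    rw [cross_sub_right, h, cross_smul_right, Alb.cross_self, he]
    simp
  by_cases d1 : e.d1 = 0
  · by_cases d2 : e.d2 = 0
    · by_cases d3 : e.d3 = 0
      · refine absurd ?_ h0
        ext1
        · exact d1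
        · exact d2
        · exact d3
        · exact hC _ (by simpa [adj, d2] using congrArg Alb.d1 he)
        · exact hC _ (by simpa [adj, d3] using congrArg Alb.d2 he)
        · exact hC _ (by simpa [adj, d1] using congrArg Alb.d3 he)
      · exact ⟨z.d3 / e.d3, sub_eq_zero.1 (zero_of_d3 hC d3 (by simp [d3]) (h1 _) (h2 _))⟩
    · exact ⟨z.d2 / e.d2, sub_eq_zero.1 (zero_of_d2 hC d2 (by simp [d2]) (h1 _) (h2 _))⟩
  · exact ⟨z.d1 / e.d1, sub_eq_zero.1 (zero_of_d1 hC d1 (by simp [d1]) (h1 _) (h2 _))⟩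

variable [CharZero F]

theorem cross_cross_adj (x y : Alb a b c) :
    cross x (cross (adj x) y) = cub x • y + tf x y • adj x := by
  refine eq_of_tf fun z => ?_
  rw [cross_comm, tf_cross, cross_comm (adj x), tf_cross, cross_adj_cross, tf_add_right,
    tf_add_left, tf_smul_right, tf_smul_right, tf_smul_left, tf_smul_left, tf_comm y x]
  ring

theorem cub_of_adj {e : Alb a b c} (he : adj e = 0) : cub e = 0 := by
  have h := tf_adj_self e
  rw [he, tf_zero_left] at h
  simpa using h.symm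

theorem adj_cross_zero {e z : Alb a b c} (he : adj e = 0) (hz : adj z = 0) :
    adj (cross e z) = 0 := by
  simpa [he, hz] using adj_cross e z

/-- Two points lie on only one line. -/
theorem line_uniq (hC : Division a b c) {e e' y : Alb a b c} (he : adj e = 0) (he' : adj e' = 0)
    (hy : adj y = 0) (h : tf e y = 0) (h' : tf e' y = 0) (h0 : e ≠ 0) (hne : ∀ t : F, e' ≠ t • e) :
    ∃ t : F, y = t • cross e e' := by
  have hf0 : cross e e' ≠ 0 := fun hf => by
    obtain ⟨t, ht⟩ := prop_of_cross hC he he' hf h0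
    exact hne t ht
  have hf := adj_cross_zero he he'
  have hw := adj_cross_zero hf hy
  have key : ∀ t : F, t • (cross e (cross (cross e e') y) + t • cross e' (cross (cross e e') y))
      = 0 := fun t => by
    have h1 := cross_cross_adj (e + t • e') y
    rw [cub_add, adj_add, adj_smul, cub_smul, he, he', cub_of_adj he, cub_of_adj he', tf_add_left,
      tf_smul_left, h, h', cross_smul_right] at h1
    simp only [smul_zero, zero_add, add_zero, tf_zero_left, tf_zero_right, mul_zero, zero_smul,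
      cross_smul_left, cross_smul_right, cross_add_left] at h1
    exact h1
  have h1 := key 1
  have h2 := key (-1)
  rw [one_smul, one_smul] at h1
  rw [neg_one_smul, neg_one_smul, neg_eq_zero] at h2
  have h3 : cross e (cross (cross e e') y) = 0 := by
    have h4 : (2 : F) • cross e (cross (cross e e') y) = 0 := by
      linear_combination (norm := module) h1 + h2
    exact (smul_eq_zero.1 h4).resolve_left two_ne_zero
  rw [h3, zero_add] at h1
  obtain ⟨s, hs⟩ := prop_of_cross hC he hw h3 h0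
  obtain ⟨s', hs'⟩ := prop_of_cross hC he' hw h1 fun h4 => hne 0 (by rw [h4, zero_smul])
  refine prop_of_cross hC hf hy ?_ hf0
  by_cases h4 : s' = 0
  · rw [hs', h4, zero_smul]
  · exact absurd (by rw [mul_smul, ← hs, hs', smul_smul, inv_mul_cancel₀ h4, one_smul])
      (hne (s'⁻¹ * s))

/-- A pair of additive maps without stable lines, compatible with the adjoint. -/
structure Pair (p q : Alb a b c →+ Alb a b c) (u v : F) : Prop where
  u0 : u ≠ 0
  v0 : v ≠ 0
  adj_p : ∀ y, adj (p y) = u • q (adj y)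
  adj_q : ∀ y, adj (q y) = v • p (adj y)
  np : ∀ y (t : F), p y = t • y → y = 0
  nq : ∀ y (t : F), q y = t • y → y = 0

variable {p q : Alb a b c →+ Alb a b c} {u v : F}

omit [CharZero F] in
theorem Pair.cross_q (h : Pair p q u v) (y z : Alb a b c) :
    cross (q y) (q z) = v • p (cross y z) := by
  have h1 := h.adj_q (y + z)
  rw [map_add, adj_add, adj_add, h.adj_q, h.adj_q, map_add, map_add, smul_add, smul_add] at h1
  exact add_left_cancel (add_right_cancel h1)

theorem Pair.adj_eq_zero (hC : Division a b c) (h : Pair p q u v) {y : Alb a b c} (h3 : cub y = 0)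
    (h6 : tf (cross (adj (p y)) (adj (p (p y)))) (adj y) = 0) : adj y = 0 := by
  by_contra h0
  have s0 : adj (adj y) = 0 := by rw [adj_adj, h3, zero_smul]
  have st : ∀ y, adj (adj y) = 0 → adj (adj (p y)) = 0 := fun y hy => by
    rw [h.adj_p, adj_smul, h.adj_q, hy, map_zero, smul_zero, smul_zero]
  have s1 := st _ s0
  have s2 := st _ s1
  have n1 : ∀ t : F, adj (p y) ≠ t • adj y := fun t ht => h0 (h.nq _ (u⁻¹ * t) (by
    rw [mul_smul, ← ht, h.adj_p, smul_smul, inv_mul_cancel₀ h.u0, one_smul]))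
  have e0 : cross (adj y) (adj (p y)) ≠ 0 := fun he => by
    obtain ⟨t, ht⟩ := prop_of_cross hC s0 s1 he h0
    exact n1 t ht
  have e1 : cross (adj (p y)) (adj (p (p y))) = (u * u * v) • p (cross (adj y) (adj (p y))) := by
    rw [h.adj_p (p y), h.adj_p y, cross_smul_left, cross_smul_right, h.cross_q, ← h.adj_p y,
      smul_smul, smul_smul]
  have huv : u * u * v ≠ 0 := mul_ne_zero (mul_ne_zero h.u0 h.u0) h.v0
  have n2 : ∀ t : F, cross (adj (p y)) (adj (p (p y))) ≠ t • cross (adj y) (adj (p y)) :=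
    fun t ht => e0 (h.np _ ((u * u * v)⁻¹ * t) (by
      rw [mul_smul, ← ht, e1, smul_smul, inv_mul_cancel₀ huv, one_smul]))
  have t1 : ∀ x z : Alb a b c, adj x = 0 → tf (cross x z) x = 0 := fun x z hx => by
    rw [tf_cross_comm, Alb.cross_self, hx, smul_zero, tf_zero_left]
  obtain ⟨t, ht⟩ := line_uniq hC (adj_cross_zero s0 s1) (adj_cross_zero s1 s2) s0 (t1 _ _ s0) h6
    e0 n2
  obtain ⟨t', ht'⟩ := line_uniq hC (adj_cross_zero s0 s1) (adj_cross_zero s1 s2) s1
    (by rw [cross_comm]; exact t1 _ _ s1) (t1 _ _ s1) e0 n2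
  have t0 : t ≠ 0 := fun h1 => h0 (by rw [ht, h1, zero_smul])
  refine n1 (t' * t⁻¹) ?_
  generalize cross (cross (adj y) (adj (p y))) (cross (adj (p y)) (adj (p (p y)))) = f at ht ht'
  rw [ht', ht, smul_smul, inv_mul_cancel_right₀ t0]

omit [CharZero F] in
theorem Pair.eq_zero (hC : Division a b c) (h : Pair p q u v) {x : Alb a b c}
    (h1 : adj x = 0) (h2 : adj (x + p x) = 0) : x = 0 := by
  have h3 : adj (p x) = 0 := by rw [h.adj_p, h1, map_zero, smul_zero]
  rw [adj_add, h1, h3, zero_add, add_zero] at h2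
  by_contra h0
  obtain ⟨t, ht⟩ := prop_of_cross hC h1 h3 h2 h0
  exact h0 (h.np x t ht)

theorem cross4_map {φ : Alb a b c ≃ₗ[F] Alb a b c} (h : ∀ x, cub (φ x) = cub x)
    (x x' y z : Alb a b c) :
    cross (cross (φ x) (φ x')) (cross (φ y) (φ z)) = φ (cross (cross x x') (cross y z)) := by
  have h1 := E6I.cross_adj_cross_map h (x + x') y z
  rw [map_add, adj_add, adj_add, cross_add_left, cross_add_left, cross_add_left, cross_add_left,
    E6I.cross_adj_cross_map h, E6I.cross_adj_cross_map h, map_add, map_add] at h1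
  exact add_left_cancel (add_right_cancel h1)

end

variable {k E : Type} [Field k] [Field E] [Algebra k E] {ρ σ : E ≃ₐ[k] E} {a b c : kˣ}

/-- The map `ph` as an additive map. -/
def phA (ρ : E ≃ₐ[k] E) (lam : Eˣ) : AlbL E a b c →+ AlbL E a b c :=
  AddMonoidHom.mk' (ph ρ lam) fun x y => by
    apply Alb.ext <;> simp [ph, omap_add, mul_add]

theorem ph_smul (lam : Eˣ) (t : E) (x : AlbL E a b c) :
    ph ρ lam (t • x) = ρ t • ph ρ lam x := by
  apply Alb.ext <;> simp [ph, omap_smul, mul_left_comm, smul_comm (ρ t)]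

theorem ph3 (hρ3 : ∀ t : E, ρ (ρ (ρ t)) = t) {lam : Eˣ} (hl : ρ lam = lam) (x : AlbL E a b c) :
    ph ρ lam (ph ρ lam (ph ρ lam x)) = (lam : E) • x := by
  have h3 : ∀ x : OctL E a b c, omap ρ (omap ρ (omap ρ x)) = x := fun x => by
    apply Oct.ext8 <;> exact hρ3 _
  have hli : ρ ((lam⁻¹ : Eˣ) : E) = (lam⁻¹ : Eˣ) := by
    rw [Units.val_inv_eq_inv_val, map_inv₀, hl]
  have hm : ∀ t : E, ((lam⁻¹ : Eˣ) : E) * ((lam : E) * t) = t := fun t => by
    rw [← mul_assoc, Units.inv_mul, one_mul]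
  have hm' : ∀ t : E, (lam : E) * (((lam⁻¹ : Eˣ) : E) * t) = t := fun t => by
    rw [← mul_assoc, Units.mul_inv, one_mul]
  apply Alb.ext
  · simp only [ph, map_mul, hl, hli, hρ3, d1_smul, hm, hm']
  · simp only [ph, map_mul, hl, hli, hρ3, d2_smul, hm, hm']
  · simp only [ph, map_mul, hl, hli, hρ3, d3_smul, hm, hm']
  · simp only [ph, omap_smul, hl, h3, x1_smul]
  · simp only [ph, omap_smul, hl, h3, x2_smul]
  · simp only [ph, omap_smul, hl, h3, x3_smul]

theorem adj_ph (lam : Eˣ) (x : AlbL E a b c) :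
    adj (ph ρ lam x) = (lam : E) • ph ρ lam⁻¹ (adj x) := by
  have h0 : (lam : E) ≠ 0 := lam.ne_zero
  rw [ph, ph, inv_inv, Units.val_inv_eq_inv_val]
  apply Alb.ext
  · simp only [adj, d1_smul, map_sub, map_mul, Oct.norm_smul, norm_om]
    field_simp
  · simp only [adj, d2_smul, map_sub, map_mul, norm_om]
    field_simp
  · simp only [adj, d3_smul, map_sub, map_mul, norm_om]
    field_simp
  · simp only [adj, x1_smul, omap_sub, omap_smul, omap_star, omap_mul]
    have e : (lam : E)⁻¹ * ρ x.d3 * (lam : E) = ρ x.d3 := by field_simp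
    rw [smul_smul (lam : E), smul_smul, mul_inv_cancel₀ h0, one_smul, e]
  · simp only [adj, x2_smul, omap_sub, omap_smul, omap_star, omap_mul]
    rw [mul_smul_comm, star_smul_oct, smul_sub, smul_smul]
  · simp only [adj, x3_smul, omap_sub, omap_smul, omap_star, omap_mul]
    rw [smul_mul_assoc, star_smul_oct, smul_sub, smul_smul]

theorem no_line (hρ3 : ∀ t : E, ρ (ρ (ρ t)) = t) {lam : Eˣ} (hl : ρ lam = lam)
    (hn : ∀ x, x * ρ x * ρ (ρ x) ≠ lam) (y : AlbL E a b c) (t : E) (h : ph ρ lam y = t • y) :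
    y = 0 := by
  have h1 := ph3 hρ3 hl y
  rw [h, ph_smul, h, ph_smul, ph_smul, h, smul_smul, smul_smul, ← sub_eq_zero, ← sub_smul,
    smul_eq_zero, sub_eq_zero] at h1
  exact h1.resolve_left fun h2 => hn t (by rw [← h2]; ring)

theorem pair_ph (hρ3 : ∀ t : E, ρ (ρ (ρ t)) = t) {lam : Eˣ} (hl : ρ lam = lam)
    (hn : ∀ x, x * ρ x * ρ (ρ x) ≠ lam) :
    Pair (phA ρ lam : AlbL E a b c →+ _) (phA ρ lam⁻¹) lam (lam⁻¹ : Eˣ) := by
  refine ⟨lam.ne_zero, Units.ne_zero _, adj_ph lam, fun y => ?_, no_line hρ3 hl hn,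
    no_line hρ3 ?_ fun x hx => hn x⁻¹ ?_⟩
  · have h := adj_ph (ρ := ρ) lam⁻¹ y
    rwa [inv_inv] at h
  · rw [Units.val_inv_eq_inv_val, map_inv₀, hl]
  · rw [map_inv₀, map_inv₀, ← mul_inv, ← mul_inv, hx, Units.val_inv_eq_inv_val, inv_inv]

/-- The identity, and the sum of the identity and `ph`. -/
def piA (ρ : E ≃ₐ[k] E) (lam : Eˣ) : Bool → (AlbL E a b c →+ AlbL E a b c)
  | false => AddMonoidHom.id _
  | true => AddMonoidHom.id _ + phA ρ lam

variable [NumberField E] [Module ℚ (AlbL E a b c)]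

/-- The forms of degree two. -/
noncomputable def fm2 (σ : E ≃ₐ[k] E) (g : Fin 3 → Eˣ) : Forms (AlbL E a b c) :=
  D2.eForms (I := Unit) (fun _ => 2) fun _ => D2.ml2 (E6H.her σ g)
    (fun u v y => by rw [E6H.her, wt_add, tf_add_left]; rfl)
    fun x u v => by rw [E6H.her, amap_add, tf_add_right]; rfl

/-- The forms of degree three. -/
noncomputable def fm3 (ρ : E ≃ₐ[k] E) (lam : Eˣ) : Forms (AlbL E a b c) :=
  D2.eForms (I := Bool) (fun _ => 3) fun i =>
    D2.ml3 (fun x y z => tf (cross (piA ρ lam i x) (piA ρ lam i y)) (piA ρ lam i z))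
      (fun u v y z => by rw [map_add, cross_add_left, tf_add_left])
      (fun u v y z => by rw [map_add, cross_add_right, tf_add_left])
      fun u v y z => by rw [map_add, tf_add_right]

/-- The forms of degree six. -/
noncomputable def fm6 (ρ : E ≃ₐ[k] E) (lam : Eˣ) : Forms (AlbL E a b c) :=
  D2.eForms (I := Bool) (fun _ => 6) fun i => D2.mlOf
    (fun x => tf (cross (cross (phA ρ lam (piA ρ lam i (x 0))) (phA ρ lam (piA ρ lam i (x 1))))
      (cross (phA ρ lam (phA ρ lam (piA ρ lam i (x 2))))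
        (phA ρ lam (phA ρ lam (piA ρ lam i (x 3))))))
      (cross (piA ρ lam i (x 4)) (piA ρ lam i (x 5)))) fun x j u v => by
    fin_cases j <;>
      simp [cross_add_left, cross_add_right, tf_add_left, tf_add_right]

/-- The anisotropic family. -/
noncomputable def fmA (ρ σ : E ≃ₐ[k] E) (lam : Eˣ) (g : Fin 3 → Eˣ) : Forms (AlbL E a b c) :=
  sum (fm2 σ g) (sum (fm3 ρ lam) (fm6 ρ lam))

theorem mem_fmA {lam : Eˣ} {g : Fin 3 → Eˣ} {u : AlbL E a b c ≃ₗ[ℚ] AlbL E a b c}
    (h1 : IsHer σ g u) (h2 : IsPh ρ lam u) : u ∈ (fmA ρ σ lam g).grp := by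
  let φ : AlbL E a b c ≃ₗ[E] AlbL E a b c :=
    { u.toAddEquiv with map_smul' := h1.1.2.1 }
  have hφ : ∀ x, cub (φ x) = cub x := h1.1.2.2
  have e1 : ∀ x, phA ρ lam (u x) = φ (phA ρ lam x) := fun x => (h2.2 x).symm
  have e1' : ∀ x, phA ρ lam (φ x) = φ (phA ρ lam x) := e1
  have e2 : ∀ i x, piA ρ lam i (u x) = φ (piA ρ lam i x) := by
    intro i x
    cases i
    · rfl
    · exact (congrArg (u x + ·) (e1 x)).trans (map_add φ _ _).symm
  have g2 : u ∈ (fm2 σ g).grp := D2.mem_grp_e.2 fun _ x => h1.2 _ _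
  have g3 : u ∈ (fm3 ρ lam).grp := D2.mem_grp_e.2 fun i x => by
    simp only [D2.ml3_apply, e2]
    exact E6I.tf_cross_map' hφ _ _ _
  have g6 : u ∈ (fm6 ρ lam).grp := D2.mem_grp_e.2 fun i x => by
    refine Eq.trans (?_ : tf _ _ = tf _ _) rfl
    simp only [e2, e1', cross4_map hφ]
    rw [tf_comm, E6I.tf_cross_map' hφ, tf_comm]
  rintro (i | i | i)
  · exact g2 i
  · exact g3 i
  · exact g6 i

theorem aniso_fmA (hρ3 : ∀ t : E, ρ (ρ (ρ t)) = t) {lam : Eˣ} {g : Fin 3 → Eˣ}
    (hF : IsForm ρ σ lam g) (han : (∀ x : AlbL E a b c, E6H.her σ g x x = 0 → x = 0) ∨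
      Division (up E a) (up E b) (up E c)) (x : AlbL E a b c) (hx : x ≠ 0) :
    ∃ i, (fmA ρ σ lam g).deg i ≠ 0 ∧ (fmA ρ σ lam g).τ i (fun _ => x) ≠ 0 := by
  rcases han with han | hC
  · have h : ∃ i, (fm2 σ g).deg i ≠ 0 ∧ (fm2 σ g).τ i (fun _ => x) ≠ 0 :=
      D2.aniso_e (fun x hx => ⟨(), two_ne_zero, fun h => hx (han x h)⟩) x hx
    obtain ⟨i, hi⟩ := h
    exact ⟨.inl i, hi⟩
  have hP := pair_ph (a := a) (b := b) (c := c) hρ3 hF.ρlam hF.hlam
  by_contra hcon
  push Not at hcon
  have h3 : ∀ i, cub (piA ρ lam i x) = 0 := by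
    intro i
    have h : tf (cross (piA ρ lam i x) (piA ρ lam i x)) (piA ρ lam i x) = 0 :=
      (Module.finBasis ℚ E).ext_elem fun m => by
        rw [map_zero]; exact hcon (.inr (.inl (i, m))) three_ne_zero
    rw [Alb.cross_self, tf_smul_left, tf_adj_self] at h
    simpa using h
  have h6 : ∀ i, adj (piA ρ lam i x) = 0 := by
    intro i
    refine hP.adj_eq_zero hC (h3 i) ?_
    have h : tf (cross (cross (phA ρ lam (piA ρ lam i x)) (phA ρ lam (piA ρ lam i x)))
        (cross (phA ρ lam (phA ρ lam (piA ρ lam i x))) (phA ρ lam (phA ρ lam (piA ρ lam i x)))))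
        (cross (piA ρ lam i x) (piA ρ lam i x)) = 0 :=
      (Module.finBasis ℚ E).ext_elem fun m => by
        rw [map_zero]; exact hcon (.inr (.inr (i, m))) (show 6 ≠ 0 by norm_num)
    rw [Alb.cross_self, Alb.cross_self, Alb.cross_self, cross_smul_left, cross_smul_right, tf_smul_left,
      tf_smul_left, tf_smul_right] at h
    simpa using h
  exact hx (hP.eq_zero hC (h6 false) (h6 true))

end Vale.Agent.P011N.X
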